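import Vale.Agent.P070.Spec

/-!
P070, LINK: the finite-dimensional step.
-/

open scoped InnerProductSpace

namespace Vale.Agent.P070.Link

/-- The projection on the strings that start with `a`. -/
noncomputable def cyl (hC : CarSpec.{0}) (m : ℕ) (a : Fin m → Fin 2) : Car :=
  ⟨matOp (Matrix.single a a (1 : ℂ)), hC.level_mem m _⟩

/-- STEP: a projection below `p` of small rank and its twin below `q` in a given cylinder, with the
partial isometries of both parts. -/
def StepSpec (hC : CarSpec.{0}) : Prop :=
  ∀ p q w p' : Car, IsStarProjection p → IsStarProjection q → IsStarProjection p' →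
    star w * w = p → w * star w = q → p * p' = p' → p' ≠ 0 →
    ∀ m : ℕ, q * cyl hC m 0 = cyl hC m 0 →
    ∀ (a : Fin m → Fin 2) (c : ℂ), ‖p' * cyl hC m a * p' - c • p'‖ < ‖c‖ →
      ∃ (q' w' u : Car) (M : ℕ), IsStarProjection q' ∧ q * q' = q' ∧
        cyl hC m 0 * q' = q' ∧ q' * cyl hC M 0 = cyl hC M 0 ∧
        star w' * w' = p' ∧ w' * star w' = q' ∧
        star u * u = p - p' ∧ u * star u = q - q'

end Vale.Agent.P070.Link
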