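import Vale.Agent.P070.Model
import Vale.Agent.P070.Link.Spec

/-!
P070, LINK: the finite-dimensional step. Projections of equal trace are equivalent, and a
projection that nearly compresses a cylinder to a nonzero scalar has at most the rank of it.
-/

open scoped Matrix Matrix.Norms.L2Operator

namespace Vale.Agent.P070.Link

section Fin

variable {ι : Type} [Fintype ι] [DecidableEq ι]

/-- A projection matrix is diagonal with zeros and ones in an orthonormal basis. -/
theorem exists_diag {P : Matrix ι ι ℂ} (hP : IsStarProjection P) :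
    ∃ (U : Matrix ι ι ℂ) (d : ι → Bool), Uᴴ * U = 1 ∧ U * Uᴴ = 1 ∧
      P = U * Matrix.diagonal (fun i => if d i then 1 else 0) * Uᴴ ∧
      P.trace = (Fintype.card {i // d i = true} : ℂ) ∧
      P.rank = Fintype.card {i // d i = true} := by
  have hH : P.IsHermitian := hP.isSelfAdjoint
  obtain ⟨h1, h2⟩ := Unitary.mem_iff.1 hH.eigenvectorUnitary.2
  set U : Matrix ι ι ℂ := (hH.eigenvectorUnitary : Matrix ι ι ℂ) with hU
  have hUU : Uᴴ * U = 1 := h1
  have hUU' : U * Uᴴ = 1 := h2
  set μ : ι → ℂ := fun i => (hH.eigenvalues i : ℂ) with hμ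
  have hs : P = U * Matrix.diagonal μ * Uᴴ := by
    conv_lhs => rw [hH.spectral_theorem]
    rfl
  have hsq : ∀ i, μ i * μ i = μ i := by
    have e : Matrix.diagonal μ = Uᴴ * P * U := by
      conv_rhs => rw [hs]
      simp only [Matrix.mul_assoc, hUU, Matrix.mul_one]
      rw [← Matrix.mul_assoc, hUU, Matrix.one_mul]
    have e2 : Matrix.diagonal μ * Matrix.diagonal μ = Matrix.diagonal μ := by
      rw [e]
      calc Uᴴ * P * U * (Uᴴ * P * U) = Uᴴ * P * (U * Uᴴ) * P * U := by
            simp only [Matrix.mul_assoc]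
        _ = Uᴴ * P * U := by
            rw [hUU', Matrix.mul_one, Matrix.mul_assoc Uᴴ P P, hP.isIdempotentElem.eq]
    intro i
    have := congrFun (congrFun e2 i) i
    simpa [Matrix.diagonal_mul_diagonal] using this
  classical
  refine ⟨U, fun i => decide (hH.eigenvalues i ≠ 0), hUU, hUU', ?_, ?_, ?_⟩
  · conv_lhs => rw [hs]
    congr 2
    refine congrArg Matrix.diagonal (funext fun i => ?_)
    show (hH.eigenvalues i : ℂ) = _
    rcases eq_or_ne (hH.eigenvalues i) 0 with h | h
    · simp [h]
    · have h' : (hH.eigenvalues i : ℂ) ≠ 0 := by exact_mod_cast h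
      have e : (hH.eigenvalues i : ℂ) * hH.eigenvalues i = hH.eigenvalues i := hsq i
      rw [mul_eq_left₀ h'] at e
      have e' : hH.eigenvalues i = 1 := by exact_mod_cast e
      simp [e']
  · rw [hH.trace_eq_sum_eigenvalues, Fintype.card_subtype, Finset.card_eq_sum_ones,
      Finset.sum_filter, Nat.cast_sum]
    refine Finset.sum_congr rfl fun i _ => ?_
    rcases eq_or_ne (hH.eigenvalues i) 0 with h | h
    · simp [h]
    · have h' : (hH.eigenvalues i : ℂ) ≠ 0 := by exact_mod_cast h
      have e : (hH.eigenvalues i : ℂ) * hH.eigenvalues i = hH.eigenvalues i := hsq i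
      rw [mul_eq_left₀ h'] at e
      have e' : hH.eigenvalues i = 1 := by exact_mod_cast e
      simp [e']
  · rw [hH.rank_eq_card_non_zero_eigs]
    exact Fintype.card_congr (Equiv.subtypeEquivRight fun i => by simp)

/-- Projections of equal trace are equivalent. -/
theorem exists_pi {P Q : Matrix ι ι ℂ} (hP : IsStarProjection P) (hQ : IsStarProjection Q)
    (h : P.trace = Q.trace) : ∃ V : Matrix ι ι ℂ, Vᴴ * V = P ∧ V * Vᴴ = Q := by
  obtain ⟨U, d, hU1, hU2, hPe, hPt, -⟩ := exists_diag hP
  obtain ⟨U', d', hU1', hU2', hQe, hQt, -⟩ := exists_diag hQ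
  rw [hPt, hQt, Nat.cast_inj] at h
  let e := Fintype.equivOfCardEq h
  let σ : Equiv.Perm ι := e.extendSubtype
  have hσ : ∀ i, d' (σ i) = d i := fun i => by
    rcases Bool.eq_false_or_eq_true (d i) with hi | hi
    · rw [hi]
      exact e.extendSubtype_mem i hi
    · have hn := e.extendSubtype_not_mem i (by simp [hi])
      rw [hi]
      simpa using hn
  set D : Matrix ι ι ℂ := Matrix.diagonal (fun i => if d i then 1 else 0)
  set R : Matrix ι ι ℂ := (1 : Matrix ι ι ℂ).submatrix id σ with hR
  have hR1 : Rᴴ * R = 1 := by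
    rw [hR, Matrix.conjTranspose_submatrix, Matrix.conjTranspose_one,
      ← Matrix.submatrix_mul _ _ σ id σ Function.bijective_id, Matrix.one_mul,
      Matrix.submatrix_one_equiv]
  have hR2 : R * D * Rᴴ = Matrix.diagonal (fun i => if d' i then (1 : ℂ) else 0) := by
    ext i j
    rw [Matrix.mul_apply, Finset.sum_eq_single (σ.symm i)]
    · simp only [hR, D, Matrix.mul_diagonal, Matrix.submatrix_apply, id_eq,
        Matrix.conjTranspose_apply, Equiv.apply_symm_apply, Matrix.one_apply, Matrix.diagonal_apply]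
      rw [← hσ (σ.symm i), Equiv.apply_symm_apply]
      by_cases hij : i = j
      · subst hij; simp
      · simp [hij, Ne.symm hij]
    · intro b _ hb
      have : i ≠ σ b := fun e => hb (by rw [e, Equiv.symm_apply_apply])
      simp [hR, D, Matrix.mul_diagonal, Matrix.one_apply, this]
    · exact fun hh => absurd (Finset.mem_univ _) hh
  have hDD : D * D = D := by
    rw [Matrix.diagonal_mul_diagonal]
    congr 1
    funext i
    split_ifs <;> simp
  have hDs : Dᴴ = D := by
    rw [Matrix.diagonal_conjTranspose]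
    congr 1
    funext i
    simp only [Pi.star_apply]
    split_ifs <;> simp
  refine ⟨U' * R * D * Uᴴ, ?_, ?_⟩
  · calc (U' * R * D * Uᴴ)ᴴ * (U' * R * D * Uᴴ)
        = U * D * (Rᴴ * (U'ᴴ * U') * R) * D * Uᴴ := by
          simp only [Matrix.conjTranspose_mul, Matrix.conjTranspose_conjTranspose, hDs,
            Matrix.mul_assoc]
      _ = P := by
          rw [hU1', Matrix.mul_one, hR1, Matrix.mul_one, Matrix.mul_assoc U D D, hDD, ← hPe]
  · calc U' * R * D * Uᴴ * (U' * R * D * Uᴴ)ᴴ
        = U' * (R * (D * (Uᴴ * U) * D) * Rᴴ) * U'ᴴ := by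
          simp only [Matrix.conjTranspose_mul, Matrix.conjTranspose_conjTranspose, hDs,
            Matrix.mul_assoc]
      _ = Q := by rw [hU1, Matrix.mul_one, hDD, hR2, ← hQe]

/-- A projection that compresses `E` close to a nonzero multiple of itself has at most the rank
of `E`. -/
theorem rank_le {P E : Matrix ι ι ℂ} (hP : IsStarProjection P) {c : ℂ}
    (h : ‖P * E * P - c • P‖ < ‖c‖) : P.rank ≤ E.rank := by
  refine le_trans ?_ (Matrix.rank_mul_le_left E P)
  set f : LinearMap.range (P.mulVecLin) →ₗ[ℂ] LinearMap.range ((E * P).mulVecLin) :=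
    LinearMap.codRestrict _ (E.mulVecLin.comp (Submodule.subtype _)) fun v => by
      obtain ⟨w, hw⟩ := v.2
      exact ⟨w, by
        show (E * P).mulVecLin w = E.mulVecLin v.1
        rw [← hw]; simp⟩
  refine LinearMap.finrank_le_finrank_of_injective (f := f) fun a b hab => ?_
  have hk : E *ᵥ (a.1 - b.1) = 0 := by
    have := congrArg Subtype.val hab
    simpa [f, Matrix.mulVec_sub, sub_eq_zero] using this
  have hPv : P *ᵥ (a.1 - b.1) = a.1 - b.1 := by
    obtain ⟨x, hx⟩ := (a - b).2
    have hx' : P *ᵥ x = a.1 - b.1 := by simpa using hx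
    rw [← hx', Matrix.mulVec_mulVec, hP.isIdempotentElem.eq]
  by_contra hne
  set z : EuclideanSpace ℂ ι := WithLp.toLp 2 (a.1 - b.1) with hz
  have hz0 : z ≠ 0 := fun e => hne (Subtype.ext (sub_eq_zero.1 (congrArg WithLp.ofLp e)))
  have key : (P * E * P - c • P) *ᵥ (a.1 - b.1) = -(c • (a.1 - b.1)) := by
    rw [Matrix.sub_mulVec, Matrix.smul_mulVec, hPv, ← Matrix.mulVec_mulVec, hPv,
      ← Matrix.mulVec_mulVec, hk, Matrix.mulVec_zero, zero_sub]
  have hb := Matrix.l2_opNorm_mulVec (P * E * P - c • P) z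
  have e2 : (EuclideanSpace.equiv ι ℂ).symm ((P * E * P - c • P) *ᵥ z.ofLp) = -(c • z) := by
    rw [show z.ofLp = a.1 - b.1 from rfl, key]
    simp [hz]
  rw [e2, norm_neg, norm_smul] at hb
  exact absurd (le_of_mul_le_mul_right hb (norm_pos_iff.2 hz0)) (not_le.2 h)

theorem proj_diag (S : Finset ι) :
    IsStarProjection (Matrix.diagonal fun i => if i ∈ S then (1 : ℂ) else 0) := by
  refine ⟨?_, ?_⟩
  · show _ * _ = _
    rw [Matrix.diagonal_mul_diagonal]
    congr 1
    funext i
    split_ifs <;> simp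
  · show _ᴴ = _
    rw [Matrix.diagonal_conjTranspose]
    congr 1
    funext i
    simp only [Pi.star_apply]
    split_ifs <;> simp

theorem trace_diag (S : Finset ι) :
    (Matrix.diagonal fun i => if i ∈ S then (1 : ℂ) else 0).trace = S.card := by
  rw [Matrix.trace_diagonal, Finset.sum_ite_mem, Finset.univ_inter]
  simp

theorem rank_diag (S : Finset ι) :
    (Matrix.diagonal fun i => if i ∈ S then (1 : ℂ) else 0).rank = S.card := by
  rw [Matrix.rank_diagonal, ← Fintype.card_coe]
  exact Fintype.card_congr (Equiv.subtypeEquivRight fun i => by simp)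

end Fin

variable (hC : CarSpec.{0})

open Classical in
/-- The strings of length `N` that start with `a`. -/
noncomputable def strs {m N : ℕ} (h : m ≤ N) (a : Fin m → Fin 2) : Finset (Fin N → Fin 2) :=
  Finset.univ.filter fun x => (fun i => x (i.castLE h)) = a

theorem card_strs {m N : ℕ} (h : m ≤ N) (a : Fin m → Fin 2) :
    (strs h a).card = (strs h 0).card := by
  classical
  set d : Fin N → Fin 2 := fun k => if hk : (k : ℕ) < m then a ⟨k, hk⟩ else 0
  have hd : (fun i : Fin m => d (i.castLE h)) = a := funext fun i => by simp [d]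
  refine (Finset.card_equiv (Equiv.addRight d) fun x => ?_).symm
  simp only [strs, Finset.mem_filter, Finset.mem_univ, true_and, Equiv.coe_addRight, Pi.add_apply]
  constructor
  · intro hx
    rw [← hd]
    funext i
    have hxi := congrFun hx i
    simp only [Pi.zero_apply] at hxi
    rw [hxi, zero_add]
  · intro hx
    funext i
    have hxi : x (i.castLE h) + d (i.castLE h) = a i := congrFun hx i
    rw [congrFun hd i] at hxi
    simpa using hxi

open Classical in
theorem levelCar_strs {m N : ℕ} (h : m ≤ N) (a : Fin m → Fin 2) :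
    Model.levelCar N (Matrix.diagonal fun x => if x ∈ strs h a then (1 : ℂ) else 0) =
      cyl hC m a := by
  refine Subtype.ext ?_
  show matOp _ = matOp (Matrix.single a a (1 : ℂ))
  refine Model.ext_δ fun j i => ?_
  rw [Model.matOp_δ, Model.matOp_δ]
  by_cases he : head N i = head N j
  · by_cases ht : Model.SameTail N i j
    · have hij : i = j := Finsupp.ext fun k => by
        rcases lt_or_ge k N with hk | hk
        exacts [congrFun he ⟨k, hk⟩, ht k hk]
      subst hij
      rw [if_pos (show Model.SameTail N i i from fun _ _ => rfl),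
        if_pos (show Model.SameTail m i i from fun _ _ => rfl), Matrix.diagonal_apply_eq,
        Matrix.single_apply]
      refine if_congr ?_ rfl rfl
      simp only [strs, Finset.mem_filter, Finset.mem_univ, true_and]
      exact ⟨fun e => ⟨e.symm, e.symm⟩, fun e => e.1.symm⟩
    · rw [if_neg ht, if_neg fun h' => ht fun k hk => h' k (h.trans hk)]
  · rw [Matrix.diagonal_apply_ne _ he, ite_self]
    split_ifs with h'
    · rw [Matrix.single_apply, if_neg]
      rintro ⟨e1, e2⟩
      refine he (funext fun k => ?_)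
      rcases lt_or_ge (k : ℕ) m with hk | hk
      · exact congrFun (e1.symm.trans e2) ⟨k, hk⟩
      · exact h' k hk
    · rfl

/-- STEP. -/
theorem stepSpec : StepSpec hC := by
  classical
  intro p q w p' hp hq hp' hw hw' hpp hp0 m hqm a c hc
  obtain ⟨n₁, X₁, hX₁⟩ := hC.exhaust p'
  obtain ⟨n₂, X₂, hX₂⟩ := hC.exhaust w
  obtain ⟨N, hN1, hN2, hN3⟩ : ∃ N, n₁ ≤ N ∧ n₂ ≤ N ∧ m ≤ N :=
    ⟨max n₁ (max n₂ m), by omega, by omega, by omega⟩
  obtain ⟨P', hP'⟩ := hC.mono n₁ N hN1 X₁
  obtain ⟨Wm, hWm⟩ := hC.mono n₂ N hN2 X₂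
  set L := Model.levelCar N
  have hinj : Function.Injective L := fun x y e =>
    Model.matOp_injective (congrArg Subtype.val e)
  have hLp' : L P' = p' := Subtype.ext (hP'.trans hX₁)
  have hLw : L Wm = w := Subtype.ext (hWm.trans hX₂)
  set P := Wmᴴ * Wm
  set Q := Wm * Wmᴴ
  have hLP : L P = p := by
    show L (star Wm * Wm) = p
    rw [map_mul, map_star, hLw, hw]
  have hLQ : L Q = q := by
    show L (Wm * star Wm) = q
    rw [map_mul, map_star, hLw, hw']
  have hproj : ∀ {X : Mat N}, IsStarProjection (L X) → IsStarProjection X := fun {X} hX =>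
    ⟨hinj (by rw [map_mul]; exact hX.isIdempotentElem.eq),
      hinj (by rw [map_star]; exact hX.isSelfAdjoint.star_eq)⟩
  have hPp : IsStarProjection P := hproj (by rwa [hLP])
  have hQp : IsStarProjection Q := hproj (by rwa [hLQ])
  have hP'p : IsStarProjection P' := hproj (by rwa [hLp'])
  have hPP' : P * P' = P' := hinj (by rw [map_mul, hLP, hLp', hpp])
  have htr : P.trace = Q.trace := Matrix.trace_mul_comm _ _
  have hE : ∀ b : Fin m → Fin 2,
      L (Matrix.diagonal fun x => if x ∈ strs hN3 b then (1 : ℂ) else 0) = cyl hC m b :=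
    levelCar_strs hC hN3
  set E : Mat N := Matrix.diagonal fun x => if x ∈ strs hN3 a then (1 : ℂ) else 0
  have hnorm : ‖P' * E * P' - c • P'‖ < ‖c‖ := by
    have e : L (P' * E * P' - c • P') = p' * cyl hC m a * p' - c • p' := by
      rw [map_sub, map_smul, map_mul, map_mul, hLp', hE]
    rw [← NonUnitalStarAlgHom.norm_map (Model.level N) Model.matOp_injective]
    have e2 : (Model.level N (P' * E * P' - c • P') : K0 →L[ℂ] K0) =
        ((L (P' * E * P' - c • P') : Car) : K0 →L[ℂ] K0) := rfl
    rw [e2, e]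
    exact hc
  obtain ⟨U, d, -, -, hP'e, hP't, hP'r⟩ := exists_diag hP'p
  set r := Fintype.card {i // d i = true}
  have hr1 : 1 ≤ r := by
    rw [Nat.one_le_iff_ne_zero]
    intro h0
    apply hp0
    have hd : ∀ i, d i = false := fun i => by
      by_contra hi
      exact ((Fintype.card_eq_zero_iff.1 h0).false ⟨i, by simpa using hi⟩)
    have : P' = 0 := by
      rw [hP'e]
      simp [hd]
    rw [← hLp', this, map_zero]
  have hrle : r ≤ (strs hN3 (0 : Fin m → Fin 2)).card := by
    rw [← card_strs hN3 a, ← hP'r, ← rank_diag (strs hN3 a)]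
    exact rank_le hP'p hnorm
  have hz : (0 : Fin N → Fin 2) ∈ strs hN3 (0 : Fin m → Fin 2) := by
    simp [strs]; rfl
  obtain ⟨S, hS1, hS2, hS3⟩ := Finset.exists_subsuperset_card_eq
    (Finset.singleton_subset_iff.2 hz) (n := r) (by simpa using hr1) hrle
  set Q' : Mat N := Matrix.diagonal fun i => if i ∈ S then (1 : ℂ) else 0
  have hQ'p : IsStarProjection Q' := proj_diag S
  have hEQ' : (Matrix.diagonal fun x => if x ∈ strs hN3 (0 : Fin m → Fin 2) then (1 : ℂ) else 0) *
      Q' = Q' := by
    rw [Matrix.diagonal_mul_diagonal]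
    congr 1
    funext i
    by_cases hi : i ∈ S
    · simp [hi, hS2 hi]
    · simp [hi]
  have hQQ' : Q * Q' = Q' := by
    refine hinj ?_
    rw [map_mul, hLQ]
    conv_lhs => rw [← hEQ', map_mul, hE, ← mul_assoc, hqm, ← hE, ← map_mul, hEQ']
  have hsub : ∀ {A B : Mat N}, IsStarProjection A → IsStarProjection B → A * B = B →
      IsStarProjection (A - B) := fun hA hB h => hB.sub_of_mul_eq_right hA h
  have ht' : P'.trace = Q'.trace := by rw [hP't, trace_diag, hS3]
  obtain ⟨V', hV1, hV2⟩ := exists_pi hP'p hQ'p ht'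
  obtain ⟨V, hV3, hV4⟩ := exists_pi (hsub hPp hP'p hPP') (hsub hQp hQ'p hQQ')
    (by rw [Matrix.trace_sub, Matrix.trace_sub, htr, ht'])
  refine ⟨L Q', L V', L V, N, hQ'p.map L, by rw [← hLQ, ← map_mul, hQQ'],
    by rw [← hE, ← map_mul, hEQ'], ?_, ?_, ?_, ?_, ?_⟩
  · refine Subtype.ext ?_
    show matOp Q' * matOp (Matrix.single (0 : Fin N → Fin 2) 0 (1 : ℂ)) = _
    rw [← Model.matOp_mul]
    show _ = matOp (Matrix.single (0 : Fin N → Fin 2) 0 (1 : ℂ))
    congr 1
    ext i j
    rw [Matrix.diagonal_mul, Matrix.single_apply]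
    split_ifs with h1 h2 <;> simp_all
  · rw [← map_star, ← map_mul, show star V' * V' = P' from hV1, hLp']
  · rw [← map_star, ← map_mul, show V' * star V' = Q' from hV2]
  · rw [← map_star, ← map_mul, show star V * V = P - P' from hV3, map_sub, hLP, hLp']
  · rw [← map_star, ← map_mul, show V * star V = Q - Q' from hV4, map_sub, hLQ]

end Vale.Agent.P070.Link
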